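import Vale.Agent.P141.H222.NumOf
import Vale.Agent.P141.H736.FixBD
import Vale.Agent.P141.H329.WinS
import Vale.Agent.P141.H652.NumR
import Vale.Agent.P141.H652.NumQ
import Vale.Agent.P141.H548.LagU
import Vale.Agent.P141.H302.BornU
import Vale.Agent.P141.H989.CrB3
import Vale.Agent.P141.H74.CutBC

/-!
# P141, line (A), increasing part: the numbers of the pair `(Bg, Cg)`

`numBC : H886.NumBC 2160000 2`, `lBCg : H408.LBCg`.
-/

set_option linter.unusedSectionVars false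
set_option linter.unusedVariables false

namespace Vale.Agent.P141.H222.Nb

open Finset Matrix
open Vale.Agent.P075 (Ix val)
open Vale.Agent.P141.PL (Pt iv ix cx mem_iv ix_ix)
open Vale.Agent.P141.PL.H315 (Tri)
open Vale.Agent.P141.H48 (US ES BSl)
open Vale.Agent.P141.H305 (ClsM kapM)
open Vale.Agent.P141.H401 (StQ FibU FibP cb)
open Vale.Agent.P141.H677 (rt KT GT tr_T cP cP_pl)
open Vale.Agent.P141.H652 (Th eb ah PbS payS dB)
open Vale.Agent.P141.H505.Sk1 (Ch eT)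
open Vale.Agent.P141.H457 (rs SD PG)
open Vale.Agent.P141.H419.WFamR
open Vale.Agent.P141.H912 (wS)
open Vale.Agent.P141.H736 (wE fix_BC2)
open Vale.Agent.P141.H302 (bN tS Pr pr_not pr_ch nmB_bN Wn_bN eT_nn)
open Vale.Agent.P141.H548 (vN oN chg kinds)
open Vale.Agent.P141.H989.CrB (fCRB)
open Vale.Agent.P141.H408
open Vale.Agent.P141.H808
open Vale.Agent.P141.H886

noncomputable section

open scoped Classical

/-! ### The two numbers -/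

/-- the number of the second slot -/
def fE : NumF := fun ι _ _ p n ez F1 F2 F3 o K x s r U g u v Q1 Q2 Q3 x0 =>
  ((((∑ l ∈ range (K + 1), (3 / 4 : ℝ) ^ l *
        vN 0 l ι p n ez F1 F2 F3 o K x s r U g u v Q1 Q2 Q3 x0) +
    (∑ l ∈ range (K + 1), (3 / 4 : ℝ) ^ l *
        vN 1 l ι p n ez F1 F2 F3 o K x s r U g u v Q1 Q2 Q3 x0)) +
    (∑ l ∈ range (K + 1), (3 / 4 : ℝ) ^ l *
        bN (l + 1) ι p n ez F1 F2 F3 o K x s r U g u v Q1 Q2 Q3 x0)) +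
    (bN 0 ι p n ez F1 F2 F3 o K x s r U g u v Q1 Q2 Q3 x0 +
    (∑ l ∈ range (K + 1), (3 / 4 : ℝ) ^ l *
        oN l ι p n ez F1 F2 F3 o K x s r U g u v Q1 Q2 Q3 x0))) +
    fCRB H989.CrB.mB ι p n ez F1 F2 F3 o K x s r U g u v Q1 Q2 Q3 x0

theorem sumU_fE : SumU 1 fE :=
  SumU.add (SumU.add (SumU.add (SumU.add (H548.sumU_v (j := 0) (by norm_num))
    (H548.sumU_v (j := 1) le_rfl)) H302.sumU_b1) (SumU.add H302.sumU_b0 H548.sumU_o))
    H989.CrB.sumU_mB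

/-- the number of the first slot -/
def fB : NumF := fun ι _ _ p n ez F1 F2 F3 o K x s r U g u v Q1 Q2 Q3 x0 =>
    dB p s r U K x u F3 Q3 x0 +
      payS (beI p r) (p.lam s r) o K (cx K x) u (fun k => H652.bS p s r U K u F3 Q3 x0 k) x0

theorem sumU_fB : SumU (-1) fB := H652.EBU

section pt

variable {ι : Type} [Fintype ι] [DecidableEq ι]

/-- drift of the weight -/
abbrev eS (p : H401.Num) (s r : ℝ) (o : ℤ) (K : ℕ) (x : Pt) (u : ℤ → ℤ → ι → ℝ) (x0 : ℤ) :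
    ℕ → ℤ → ℤ → Matrix ι ι ℝ :=
  fun k x1 m => eb (p.lam s r) K (cx K x).2.1 (KT (p.lam s r) u x1) (o - 2) x0 x1 (k + 1) m

/-- variation of the weight -/
abbrev dS (p : H401.Num) (s r : ℝ) (o : ℤ) (K : ℕ) (x : Pt) (u : ℤ → ℤ → ι → ℝ) (x0 : ℤ) :
    ℕ → ℤ → ℤ → Matrix ι ι ℝ :=
  fun k x1 m => ah (p.lam s r) K (cx K x).2.1 (KT (p.lam s r) u x1) (o - 2) x0 x1 k m

variable {p : H401.Num} {s r ez : ℝ} {o : ℤ} {K : ℕ} {x : Pt} {U : Tri} {u v : ℤ → ℤ → ι → ℝ}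
  {F2 : ℕ → Pt → ℝ} {x0 : ℤ}

theorem kinds_nn (ht : 0 < p.t) (hs : 0 < s) (hr : 1 ≤ r) (a : ℕ) (x1 z : ℤ) (w : ι → ℝ) :
    0 ≤ kinds p s r o K x u x0 a x1 z w := by
  unfold H548.kinds
  have h1 := H548.zm_nonneg ht hs hr o K x u x0 a x1 z w
  have h2 := H548.ze_nonneg ht hs hr o K x u x0 a x1 z w
  have h3 := H548.zd_nonneg ht hs hr o K x u x0 a x1 z w
  have h4 := H548.zq_nonneg ht hs hr o K x u x0 a x1 z w
  linarith

theorem vN_nn (ht : 0 < p.t) (hs : 0 < s) (hr : 1 ≤ r) (j l n : ℕ) (F1 F3 : ℕ → Pt → ℝ)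
    (g : ℤ → ℤ → ℝ) (Q1 Q2 Q3 : ℕ → Pt → Prop) :
    0 ≤ vN j l ι p n ez F1 F2 F3 o K x s r U g u v Q1 Q2 Q3 x0 :=
  sum_nonneg fun k _ => sum_nonneg fun x1 _ => sum_nonneg fun z _ =>
    add_nonneg (H548.chg_nonneg ht hs hr o K x u x0 _ x1 z _) (kinds_nn ht hs hr _ x1 z _)

/-- variation and drift of the lag `l`, time `k + j` -/
theorem vd_le (ht : 0 < p.t) (hs : 0 < s) (hr : 1 ≤ r) (j l n : ℕ) (F1 F3 : ℕ → Pt → ℝ)
    (g : ℤ → ℤ → ℝ) (Q1 Q2 Q3 : ℕ → Pt → Prop) :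
    (beI p r)⁻¹ * (∑ k ∈ Ico 0 (K - l), Dn K (cx K x).2.2 (cx K x).1 (dS p s r o K x u x0)
      (cS p ez U K v F2 x0 (k + j)) (k + l)) +
    (beI p r)⁻¹ * (∑ k ∈ Ico 0 (K - l), En K (cx K x).2.2 (cx K x).1 (eS p s r o K x u x0)
      (cS p ez U K v F2 x0 (k + j)) (k + l)) ≤
    vN j l ι p n ez F1 F2 F3 o K x s r U g u v Q1 Q2 Q3 x0 := by
  unfold H419.WFamR.Dn H419.WFamR.En H548.vN
  rw [← range_eq_Ico, mul_sum, mul_sum, ← sum_add_distrib]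
  refine sum_le_sum fun k _ => ?_
  rw [mul_sum, mul_sum, ← sum_add_distrib]
  refine sum_le_sum fun x1 _ => ?_
  rw [mul_sum, mul_sum, ← sum_add_distrib]
  refine sum_le_sum fun z _ => ?_
  have h1 := H548.raw_le ht hs hr o K x u x0 (k + l) x1 z (cS p ez U K v F2 x0 (k + j) x1 z)
  have h2 := kinds_nn (o := o) (K := K) (x := x) (u := u) (x0 := x0) ht hs hr (k + l) x1 z
    (cS p ez U K v F2 x0 (k + j) x1 z)
  linarith

theorem bN_nn (ht : 0 < p.t) (hs : 0 < s) (hr : 1 ≤ r) (l n : ℕ) (F1 F3 : ℕ → Pt → ℝ)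
    (g : ℤ → ℤ → ℝ) (Q1 Q2 Q3 : ℕ → Pt → Prop) :
    0 ≤ bN l ι p n ez F1 F2 F3 o K x s r U g u v Q1 Q2 Q3 x0 :=
  sum_nonneg fun k _ => sum_nonneg fun x1 _ => sum_nonneg fun z _ => by
    split_ifs
    · exact eT_nn ht hs hr _ _ _ _
    · exact le_rfl

theorem oN_nn (ht : 0 < p.t) (hs : 0 < s) (hr : 1 ≤ r) (l n : ℕ) (F1 F3 : ℕ → Pt → ℝ)
    (g : ℤ → ℤ → ℝ) (Q1 Q2 Q3 : ℕ → Pt → Prop) :
    0 ≤ oN l ι p n ez F1 F2 F3 o K x s r U g u v Q1 Q2 Q3 x0 :=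
  sum_nonneg fun x1 _ => sum_nonneg fun z _ => eT_nn ht hs hr _ _ _ _

theorem crb_nn (ht : 0 < p.t) (hs : 0 < s) (hr : 1 ≤ r) (Pb : H989.CrB.MarkF) (n : ℕ)
    (F1 F3 : ℕ → Pt → ℝ) (g : ℤ → ℤ → ℝ) (Q1 Q2 Q3 : ℕ → Pt → Prop) :
    0 ≤ fCRB Pb ι p n ez F1 F2 F3 o K x s r U g u v Q1 Q2 Q3 x0 :=
  sum_nonneg fun k _ => sum_nonneg fun x1 _ => sum_nonneg fun z _ => by
    split_ifs
    · exact eT_nn ht hs hr _ _ _ _
    · exact le_rfl

/-- the first term of a weighted sum -/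
theorem w0_le {K : ℕ} {X : ℕ → ℝ} (h : ∀ r, 0 ≤ X r) :
    X 0 ≤ ∑ l ∈ range (K + 1), (3 / 4 : ℝ) ^ l * X l := H912.wS_zero_le h

theorem wn {K : ℕ} {X : ℕ → ℝ} (h : ∀ r, 0 ≤ X r) :
    0 ≤ ∑ l ∈ range (K + 1), (3 / 4 : ℝ) ^ l * X l := H912.wS_nonneg h

/-- stopped at the time `K` -/
theorem cS_stop (k : ℕ) : cS p ez U K v F2 x0 (min k K) = cS p ez U K v F2 x0 k := by
  show H44.Ti.Cw _ _ (min (min k K) K) = H44.Ti.Cw _ _ (min k K)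
  rw [min_assoc, min_self]

end pt

/-- **The pair at one `x0`, class data.** -/
theorem pt_le {ι : Type} [Fintype ι] [DecidableEq ι] {p : H401.Num} {n : ℕ} {ez : ℝ}
    {F1 F2 F3 : ℕ → Pt → ℝ} {o : ℤ} {K : ℕ} {x : Pt} {s r : ℝ} {U : Tri} {g : ℤ → ℤ → ℝ}
    {u v : ℤ → ℤ → ι → ℝ} {Q1 Q2 Q3 : ℕ → Pt → Prop} {P cPn : ℝ} (ht : 0 < p.t) (ht1 : p.t ≤ 1)
    (he0 : 0 ≤ p.e0) (hd1 : p.d ≤ 1) (ho : o = 1 ∨ o = -1) (hK : K ≤ n) (hs : 0 < s)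
    (hr : 1 ≤ r) (hcls : H305.Cls K x s r P U g u v) (q2 : BSl n ez cPn F2 Q2) (hez : 0 < ez)
    (x0 : ℤ) {z : ℝ} (hz : 0 < z) {J : ℕ} (hJ : (2 * cCI p s r) ^ 2 ≤ 4 ^ J * z ^ 2) :
    pBC (p.al U K) o K (cx K x) (beI p r) (p.lam s r) u (cb p s r U K u F3 Q3)
        (C1 p ez U K v F2) (tauI p s r) z x0 ≤
      2160000 * ((J : ℝ) + 1) ^ 3 *
        (√(z ^ 2 * fE ι p n ez F1 F2 F3 o K x s r U g u v Q1 Q2 Q3 x0 *
          (tauI p s r ^ 2 * fB ι p n ez F1 F2 F3 o K x s r U g u v Q1 Q2 Q3 x0)) +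
        tauI p s r ^ 2 * fE ι p n ez F1 F2 F3 o K x s r U g u v Q1 Q2 Q3 x0) := by
  have hl : 0 < p.lam s r := H401.Num.lam_pos (p := p) ht hs hr
  have hbe : 0 < beI p r := Real.rpow_pos_of_pos (div_pos ht (by linarith)) _
  have hbe1 : beI p r ≤ 1 := H548.beI_le_one ht ht1 he0 hr
  have hth : 0 < p.th s r := H401.Num.th_pos ht hs hr
  have hT := H652.wt_Th (fun x1 => tr_T hl K u x1) (cx K x).2.1 (o - 2) x0
  have hT2 : ∀ k x1 m, ((2 : ℝ) • (1 : Matrix ι ι ℝ) - tS p s r o K x u x0 k x1 m).PosSemidef :=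
    fun k x1 m => H652.Th_le_two (tr_T hl K u x1) (o - 2) x0 x1 k m
  -- the terms of the number of the second slot
  set V0 : ℝ := ∑ l ∈ range (K + 1), (3 / 4 : ℝ) ^ l *
    vN 0 l ι p n ez F1 F2 F3 o K x s r U g u v Q1 Q2 Q3 x0 with hV0
  set V1 : ℝ := ∑ l ∈ range (K + 1), (3 / 4 : ℝ) ^ l *
    vN 1 l ι p n ez F1 F2 F3 o K x s r U g u v Q1 Q2 Q3 x0 with hV1
  set B1 : ℝ := ∑ l ∈ range (K + 1), (3 / 4 : ℝ) ^ l *
    bN (l + 1) ι p n ez F1 F2 F3 o K x s r U g u v Q1 Q2 Q3 x0 with hB1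
  set B0 : ℝ := bN 0 ι p n ez F1 F2 F3 o K x s r U g u v Q1 Q2 Q3 x0 with hB0
  set O0 : ℝ := ∑ l ∈ range (K + 1), (3 / 4 : ℝ) ^ l *
    oN l ι p n ez F1 F2 F3 o K x s r U g u v Q1 Q2 Q3 x0 with hO0
  set R0 : ℝ := fCRB H989.CrB.mB ι p n ez F1 F2 F3 o K x s r U g u v Q1 Q2 Q3 x0 with hR0
  have nV0 : 0 ≤ V0 := wn fun l => vN_nn ht hs hr 0 l n F1 F3 g Q1 Q2 Q3
  have nV1 : 0 ≤ V1 := wn fun l => vN_nn ht hs hr 1 l n F1 F3 g Q1 Q2 Q3
  have nB1 : 0 ≤ B1 := wn fun l => bN_nn ht hs hr (l + 1) n F1 F3 g Q1 Q2 Q3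
  have nB0 : 0 ≤ B0 := bN_nn ht hs hr 0 n F1 F3 g Q1 Q2 Q3
  have nO0 : 0 ≤ O0 := wn fun l => oN_nn ht hs hr l n F1 F3 g Q1 Q2 Q3
  have nR0 : 0 ≤ R0 := crb_nn ht hs hr _ n F1 F3 g Q1 Q2 Q3
  have hEE : fE ι p n ez F1 F2 F3 o K x s r U g u v Q1 Q2 Q3 x0 =
      (((V0 + V1) + B1) + (B0 + O0)) + R0 := rfl
  set EE : ℝ := fE ι p n ez F1 F2 F3 o K x s r U g u v Q1 Q2 Q3 x0 with hEEd
  have nEE : 0 ≤ EE := by rw [hEE]; linarith
  have nD : 0 ≤ dB p s r U K x u F3 Q3 x0 := H652.dB_nonneg x x0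
  have nP : 0 ≤ payS (beI p r) (p.lam s r) o K (cx K x) u
      (fun k => H652.bS p s r U K u F3 Q3 x0 k) x0 := H652.payS_nonneg hbe hl _
  have hBB : fB ι p n ez F1 F2 F3 o K x s r U g u v Q1 Q2 Q3 x0 =
      dB p s r U K x u F3 Q3 x0 + payS (beI p r) (p.lam s r) o K (cx K x) u
        (fun k => H652.bS p s r U K u F3 Q3 x0 k) x0 := rfl
  set BB : ℝ := fB ι p n ez F1 F2 F3 o K x s r U g u v Q1 Q2 Q3 x0 with hBBd
  have nBB : 0 ≤ BB := by rw [hBB]; linarith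
  have hPr : ∀ k w m, Pr (cS p ez U K v F2 x0) k w m → Ch (cS p ez U K v F2 x0) k m (ix k w) :=
    pr_ch
  -- charges of the lag zero, shifted path
  have vd10 : (beI p r)⁻¹ * (∑ k ∈ Ico 0 (K - 0), Dn K (cx K x).2.2 (cx K x).1
        (dS p s r o K x u x0) (cS p ez U K v F2 x0 (k + 1)) (k + 0)) ≤ EE ∧
      (beI p r)⁻¹ * (∑ k ∈ Ico 0 (K - 0), En K (cx K x).2.2 (cx K x).1 (eS p s r o K x u x0)
        (cS p ez U K v F2 x0 (k + 1)) (k + 0)) ≤ EE := by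
    have h1 := vd_le (ez := ez) (U := U) (v := v) (F2 := F2) (x0 := x0) (o := o) (K := K) (x := x)
      (u := u) ht hs hr 1 0 n F1 F3 g Q1 Q2 Q3
    have h2 : 0 ≤ (beI p r)⁻¹ * (∑ k ∈ Ico 0 (K - 0), En K (cx K x).2.2 (cx K x).1
      (eS p s r o K x u x0) (cS p ez U K v F2 x0 (k + 1)) (k + 0)) :=
      mul_nonneg (inv_pos.2 hbe).le (sum_nonneg fun k _ => En_nonneg hT.pe K _ _ _ _)
    have h3 : 0 ≤ (beI p r)⁻¹ * (∑ k ∈ Ico 0 (K - 0), Dn K (cx K x).2.2 (cx K x).1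
      (dS p s r o K x u x0) (cS p ez U K v F2 x0 (k + 1)) (k + 0)) :=
      mul_nonneg (inv_pos.2 hbe).le (sum_nonneg fun k _ => Dn_nonneg K _ _ _ _)
    have h4 := w0_le (K := K)
      (X := fun l => vN 1 l ι p n ez F1 F2 F3 o K x s r U g u v Q1 Q2 Q3 x0)
      fun l => vN_nn ht hs hr 1 l n F1 F3 g Q1 Q2 Q3
    beta_reduce at h4
    rw [← hV1] at h4
    constructor
    · rw [hEE]
      linarith
    · rw [hEE]
      linarith
  -- the window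
  refine (H329.WinBC.pBC_cls ht hs hr ez U o K x u v F2 F3 Q3
    (mul_pos two_pos hth : 0 < tauI p s r) hz x0).trans ?_
  rw [← H74.CutBC.GW_win_cut]
  have key := fix_BC2 (be := beI p r) (T := tS p s r o K x u x0) (e := eS p s r o K x u x0)
    (d := dS p s r o K x u x0) hbe hbe1 (s := z ^ 2) (q := p.th s r ^ 2) (τ := 2)
    (sq_pos_of_pos hz) (sq_nonneg _) zero_le_two le_rfl hT hT2 (N := K)
    (b := H652.bS p s r U K u F3 Q3 x0)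
    (c := H170.Win.cut K (cx K x).1 (cx K x).2.2 (cS p ez U K v F2 x0))
    (Pb := PbS p s r U K u F3 Q3 x0) (Pc := Pr (cS p ez U K v F2 x0))
    (H652.PbS_off x0) (H74.CutBC.cut_row pr_not) (H652.bS_capk hth x0) (H652.bS_capk1 hth x0)
    (H652.bS_capN hth x0) (C := cCI p s r ^ 2)
    (fun k a n' m h1 h2 => H74.CapBC.cut_capX ht ht1 hd1 he0 hs hr hez hK hcls q2 x0
      (by omega) (by omega) (by omega) n' m)
    (fun k a n' m h1 h2 => H74.CapBC.cut_capX ht ht1 hd1 he0 hs hr hez hK hcls q2 x0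
      (by omega) (by omega) (by omega) n' m)
    (J := J) ?_ (R₁ := (cx K x).2.1) (S₁ := (cx K x).1) (T₁ := (cx K x).2.2)
    (cc := cP o x0) (cP_pl ho x0) (E := EE) (EB := BB) nEE nBB ?_ ?_ ?_ ?_ ?_ ?_ ?_ ?_ ?_ ?_ ?_
    ?_ ?_
  · -- the final comparison
    refine (le_of_eq ?_).trans (key.trans ?_)
    · rfl
    · have h1 : p.th s r ^ 2 ≤ tauI p s r ^ 2 := by
        unfold tauI
        nlinarith [sq_nonneg (p.th s r)]
      have h2 : √(z ^ 2 * EE * (p.th s r ^ 2 * BB)) ≤ √(z ^ 2 * EE * (tauI p s r ^ 2 * BB)) :=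
        Real.sqrt_le_sqrt (mul_le_mul_of_nonneg_left (mul_le_mul_of_nonneg_right h1 nBB)
          (mul_nonneg (sq_nonneg z) nEE))
      have h3 : p.th s r ^ 2 * EE ≤ tauI p s r ^ 2 * EE := mul_le_mul_of_nonneg_right h1 nEE
      have h4 : 18 * (120000 * ((J : ℝ) + 1) ^ 3) = 2160000 * ((J : ℝ) + 1) ^ 3 := by ring
      rw [h4]
      exact mul_le_mul_of_nonneg_left (add_le_add h2 h3) (by positivity)
  · nlinarith [sq_nonneg (cCI p s r)]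
  · exact (H652.bS_hB1 x x0).trans (by rw [hBB]; linarith)
  · exact (H652.bS_hB2 x x0).trans (by rw [hBB]; linarith)
  · exact (H652.pay_hB3 (M := cx K x) hbe hl (H652.bS p s r U K u F3 Q3 x0)).trans
      (by rw [hBB]; linarith)
  · exact (H652.pay_hB4 (M := cx K x) hbe (H652.bS p s r U K u F3 Q3 x0)).trans
      (by rw [hBB]; linarith)
  · rw [H74.CutBC.c1_cut, H74.CutBC.nmH_cut]
    have h1 : nmH K (cx K x).2.2 (cx K x).1 (beI p r) (tS p s r o K x u x0)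
        (c1 K (cS p ez U K v F2 x0)) 0 =
        oN 0 ι p n ez F1 F2 F3 o K x s r U g u v Q1 Q2 Q3 x0 := by
      unfold H419.WFamR.nmH H419.WFamR.c1 H419.WFamR.Wn H548.oN
      rw [cS_stop, Nat.zero_add, Nat.zero_min]
      rfl
    rw [h1]
    have h2 := w0_le (K := K) (X := fun l => oN l ι p n ez F1 F2 F3 o K x s r U g u v Q1 Q2 Q3 x0)
      fun l => oN_nn ht hs hr l n F1 F3 g Q1 Q2 Q3
    rw [hEE]
    linarith
  · rw [H74.CutBC.c1_cut, H74.CutBC.nmD_cut, nmD_c1]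
    have h1 := vd10.1
    linarith
  · rw [H74.CutBC.c1_cut, H74.CutBC.nmE_cut, nmE_c1]
    have h1 := vd10.2
    linarith
  · have h1 : ∑ k ∈ Ico 0 K, ∑ x1 ∈ iv K (cx K x).1, ∑ z ∈ iv K (cx K x).2.2,
        (if ∃ w, ix (k + 1) w = cP o x0 (k + 1) - ix (k + 1) x1 - ix (k + 1) z ∧
          PbS p s r U K u F3 Q3 x0 k w (ix k x1) then
        wE (beI p r) (tS p s r o K x u x0) k
          (H170.Win.cut K (cx K x).1 (cx K x).2.2 (cS p ez U K v F2 x0) (k + 1)) x1 z else 0) =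
        R0 := by
      rw [hR0]
      unfold H989.CrB.fCRB
      refine sum_congr rfl fun k hk => sum_congr rfl fun x1 h1 => sum_congr rfl fun z h2 => ?_
      have hk2 := (mem_Ico.1 hk).2
      rw [H74.CutBC.wE_cut (show k + 1 ≤ K from hk2) h1 h2]
      rfl
    rw [h1, hEE]
    linarith
  · have h1 : ∑ k ∈ Ico 0 K, Wn K (cx K x).2.2 (cx K x).1 (beI p r) (tS p s r o K x u x0)
        (rs (Pr (cS p ez U K v F2 x0) k) k
          (H170.Win.cut K (cx K x).1 (cx K x).2.2 (cS p ez U K v F2 x0) (k + 1))) k =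
        ∑ k ∈ Ico 0 K, Wn K (cx K x).2.2 (cx K x).1 (beI p r) (tS p s r o K x u x0)
        (rs (Pr (cS p ez U K v F2 x0) k) k (cS p ez U K v F2 x0 (k + 1))) k :=
      sum_congr rfl fun k hk => H74.CutBC.Wn_rs_cut (show k + 1 ≤ K from (mem_Ico.1 hk).2) _ _ _
    rw [h1]
    refine (Wn_bN ht hs hr hPr n F1 F3 g Q1 Q2 Q3).trans ?_
    rw [hEE]
    linarith
  · rw [H74.CutBC.nmH_cut]
    have h1 : nmH K (cx K x).2.2 (cx K x).1 (beI p r) (tS p s r o K x u x0)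
        (cS p ez U K v F2 x0) = fun _ => 0 := by
      funext l
      unfold H419.WFamR.nmH H419.WFamR.Wn
      refine sum_eq_zero fun x1 _ => sum_eq_zero fun z _ => ?_
      rw [H548.cS_zero, zero_dotProduct]
    rw [h1]
    unfold H912.wS
    simp only [mul_zero, sum_const_zero]
    exact nEE
  · rw [H74.CutBC.nmD_cut]
    refine (H912.wS_mono fun l => ?_).trans (show V0 ≤ EE by rw [hEE]; linarith)
    have h1 := vd_le (ez := ez) (U := U) (v := v) (F2 := F2) (x0 := x0) (o := o) (K := K) (x := x)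
      (u := u) ht hs hr 0 l n F1 F3 g Q1 Q2 Q3
    have h2 : 0 ≤ (beI p r)⁻¹ * (∑ k ∈ Ico 0 (K - l), En K (cx K x).2.2 (cx K x).1
      (eS p s r o K x u x0) (cS p ez U K v F2 x0 (k + 0)) (k + l)) :=
      mul_nonneg (inv_pos.2 hbe).le (sum_nonneg fun k _ => En_nonneg hT.pe K _ _ _ _)
    have h3 : (beI p r)⁻¹ * nmD K (cx K x).2.2 (cx K x).1 (dS p s r o K x u x0)
        (cS p ez U K v F2 x0) l ≤
        vN 0 l ι p n ez F1 F2 F3 o K x s r U g u v Q1 Q2 Q3 x0 := by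
      unfold H419.WFamR.nmD
      exact (le_add_of_nonneg_right h2).trans h1
    exact h3
  · rw [H74.CutBC.nmE_cut]
    refine (H912.wS_mono fun l => ?_).trans (show V0 ≤ EE by rw [hEE]; linarith)
    have h1 := vd_le (ez := ez) (U := U) (v := v) (F2 := F2) (x0 := x0) (o := o) (K := K) (x := x)
      (u := u) ht hs hr 0 l n F1 F3 g Q1 Q2 Q3
    have h2 : 0 ≤ (beI p r)⁻¹ * (∑ k ∈ Ico 0 (K - l), Dn K (cx K x).2.2 (cx K x).1
      (dS p s r o K x u x0) (cS p ez U K v F2 x0 (k + 0)) (k + l)) :=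
      mul_nonneg (inv_pos.2 hbe).le (sum_nonneg fun k _ => Dn_nonneg K _ _ _ _)
    have h3 : (beI p r)⁻¹ * nmE K (cx K x).2.2 (cx K x).1 (eS p s r o K x u x0)
        (cS p ez U K v F2 x0) l ≤
        vN 0 l ι p n ez F1 F2 F3 o K x s r U g u v Q1 Q2 Q3 x0 := by
      unfold H419.WFamR.nmE
      exact (le_add_of_nonneg_left h2).trans h1
    exact h3
  · rw [H74.CutBC.nmB_cut]
    refine (H912.wS_mono fun l => nmB_bN ht hs hr hPr l n F1 F3 g Q1 Q2 Q3).trans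
      (show B1 ≤ EE by rw [hEE]; linarith)

/-- **The numbers of the pair `(Bg, Cg)`.** -/
theorem numBC : NumBC 2160000 2 := by
  refine H222.Of.numBC_of sumU_fE sumU_fB ?_
  intro ι _ _ p n ez F1 F2 F3 o K x s r U g u v Q1 Q2 Q3 ht ht1 he0 he01 hk3 hk31 hd hd1 hc he hcP
    hL ho hKn hs hr hcls q1 q2 q3 hez f1 f2
  have hr0 : 0 < p.t / r := div_pos ht (by linarith)
  have hl : 0 < p.lam s r := H401.Num.lam_pos (p := p) ht hs hr
  have hbe : 0 < beI p r := Real.rpow_pos_of_pos hr0 _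
  refine ⟨fun x0 => ?_, fun x0 => ?_, fun t _ x0 _ z J hz1 _ hJ => ?_⟩
  · unfold fE
    have a1 : 0 ≤ ∑ l ∈ range (K + 1), (3 / 4 : ℝ) ^ l *
        vN 0 l ι p n ez F1 F2 F3 o K x s r U g u v Q1 Q2 Q3 x0 :=
      wn fun l => vN_nn ht hs hr 0 l n F1 F3 g Q1 Q2 Q3
    have a2 : 0 ≤ ∑ l ∈ range (K + 1), (3 / 4 : ℝ) ^ l *
        vN 1 l ι p n ez F1 F2 F3 o K x s r U g u v Q1 Q2 Q3 x0 :=
      wn fun l => vN_nn ht hs hr 1 l n F1 F3 g Q1 Q2 Q3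
    have a3 : 0 ≤ ∑ l ∈ range (K + 1), (3 / 4 : ℝ) ^ l *
        bN (l + 1) ι p n ez F1 F2 F3 o K x s r U g u v Q1 Q2 Q3 x0 :=
      wn fun l => bN_nn ht hs hr (l + 1) n F1 F3 g Q1 Q2 Q3
    have a4 : 0 ≤ bN 0 ι p n ez F1 F2 F3 o K x s r U g u v Q1 Q2 Q3 x0 :=
      bN_nn ht hs hr 0 n F1 F3 g Q1 Q2 Q3
    have a5 : 0 ≤ ∑ l ∈ range (K + 1), (3 / 4 : ℝ) ^ l *
        oN l ι p n ez F1 F2 F3 o K x s r U g u v Q1 Q2 Q3 x0 :=
      wn fun l => oN_nn ht hs hr l n F1 F3 g Q1 Q2 Q3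
    have a6 : 0 ≤ fCRB H989.CrB.mB ι p n ez F1 F2 F3 o K x s r U g u v Q1 Q2 Q3 x0 :=
      crb_nn ht hs hr _ n F1 F3 g Q1 Q2 Q3
    exact add_nonneg (add_nonneg (add_nonneg (add_nonneg a1 a2) a3) (add_nonneg a4 a5)) a6
  · exact add_nonneg (H652.dB_nonneg x x0) (H652.payS_nonneg hbe hl _)
  · have hth : 0 < p.th s r := H401.Num.th_pos ht hs hr
    have hz : 0 < z := lt_of_lt_of_le (mul_pos (Real.rpow_pos_of_pos hr0 _)
      (mul_pos two_pos hth)) hz1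
    exact pt_le ht ht1 he0.le hd1 ho hKn hs hr hcls.toCls q2 hez x0 hz hJ

/-- **LEAF: moving pair** `(Bg, Cg)`, full height of `Bg`. -/
theorem lBCg : LBCg := lbc_end (by norm_num) (by norm_num) numBC

end

end Vale.Agent.P141.H222.Nb
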