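import Vale.Agent.P141.H886.LbcEnd
import Vale.Agent.P141.H886.SumU

/-!
# P141, line (A), increasing part: the numbers of the pair `(Bg, Cg)` from one point

`numBC_of` : `H886.NumBC` from the bound at one `x0` (class data) and the two sums over the `x0`.
-/

namespace Vale.Agent.P141.H222.Of

open Finset Matrix
open Vale.Agent.P141.PL (Pt iv cx)
open Vale.Agent.P141.PL.H315 (Tri)
open Vale.Agent.P141.H48 (US ES BSl)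
open Vale.Agent.P141.H305 (ClsM kapM)
open Vale.Agent.P141.H401 (StQ FibU FibP cb)
open Vale.Agent.P141.H677 (rt)
open Vale.Agent.P141.H408
open Vale.Agent.P141.H886

noncomputable section

open scoped Classical

/-- **The numbers from one point.** The constants `d ≤ 1`, `e0 ≤ 1`, `k3 ≤ 1` may be used. -/
theorem numBC_of {K₀ c₁ : ℝ} {fE fB : NumF} (HE : SumU 1 fE) (HB : SumU (-1) fB)
    (pt : ∀ (ι : Type) [Fintype ι] [DecidableEq ι] (p : H401.Num) (n : ℕ) (ez : ℝ)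
      (F1 F2 F3 : ℕ → Pt → ℝ) (o : ℤ) (K : ℕ) (x : Pt) (s r : ℝ) (U : Tri) (g : ℤ → ℤ → ℝ)
      (u v : ℤ → ℤ → ι → ℝ) (Q1 Q2 Q3 : ℕ → Pt → Prop), 0 < p.t → p.t ≤ 1 → 0 < p.e0 →
      p.e0 ≤ 1 → 0 < p.k3 → p.k3 ≤ 1 → 0 < p.d → p.d ≤ 1 → 0 ≤ p.c → 1 ≤ p.e → 0 ≤ p.cP →
      1 ≤ p.L → (o = 1 ∨ o = -1) → K ≤ n → 0 < s → 1 ≤ r →
      ClsM K x s r (p.L * p.t ^ (2 - p.c) * √s) (kapM p.L p.t p.a s r) U g u v →
      BSl n p.e p.cP F1 Q1 → BSl n ez p.cP F2 Q2 → BSl n p.e p.cP F3 Q3 → 0 < ez →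
      FibU p K x s r U u → FibP p K x s r U v →
      (∀ x0, 0 ≤ fE ι p n ez F1 F2 F3 o K x s r U g u v Q1 Q2 Q3 x0) ∧
      (∀ x0, 0 ≤ fB ι p n ez F1 F2 F3 o K x s r U g u v Q1 Q2 Q3 x0) ∧
      ∀ t ∈ rt (cx K x), ∀ x0 ∈ iv K t, ∀ (z : ℝ) (J : ℕ), gI p s r ≤ z → z ≤ cCI p s r →
        (c₁ * cCI p s r) ^ 2 ≤ 4 ^ J * z ^ 2 →
        pBC (p.al U K) o K (cx K x) (beI p r) (p.lam s r) u (cb p s r U K u F3 Q3)
            (C1 p ez U K v F2) (tauI p s r) z x0 ≤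
          K₀ * ((J : ℝ) + 1) ^ 3 *
            (√(z ^ 2 * fE ι p n ez F1 F2 F3 o K x s r U g u v Q1 Q2 Q3 x0 *
              (tauI p s r ^ 2 * fB ι p n ez F1 F2 F3 o K x s r U g u v Q1 Q2 Q3 x0)) +
            tauI p s r ^ 2 * fE ι p n ez F1 F2 F3 o K x s r U g u v Q1 Q2 Q3 x0)) :
    NumBC K₀ c₁ := by
  have H := PairU.and HE HB (mono_sumQ 1 fE) (mono_sumQ (-1) fB)
  intro a ha ha1
  obtain ⟨es, hes, H⟩ := H a ha ha1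
  refine ⟨min es 1, lt_min hes one_pos, fun e0 he0 he0' => ?_⟩
  obtain ⟨k8s, hk8s, H⟩ := H e0 he0 (he0'.trans (min_le_left _ _))
  refine ⟨k8s, hk8s, fun k8 hk8 hk8' => ?_⟩
  obtain ⟨k3s, hk3s, H⟩ := H k8 hk8 hk8'
  refine ⟨min k3s 1, lt_min hk3s one_pos, fun k3 hk3 hk3' δ hδ => ?_⟩
  obtain ⟨c1, d0, hc1, hd0, H⟩ := H k3 hk3 (hk3'.trans (min_le_left _ _)) δ hδ
  refine ⟨c1, min d0 1, hc1, lt_min hd0 one_pos, fun c hc hcc d hd hdd Kt e cP L hK he hcP hL => ?_⟩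
  obtain ⟨C, hC, H⟩ := H c hc hcc d hd (hdd.trans (min_le_left _ _)) Kt e cP L hK he hcP hL
  refine ⟨C, hC, ?_⟩
  intro t ht ht1 n ez F1 F2 F3 h1 h3 h2 o ho K hKn x ι _ _ s r U g u v hs hr hcls Q1 Q2 Q3 q1 q2 q3
    hez f1 f2
  obtain ⟨hE, hB⟩ :=
    H t ht ht1 n ez F1 F2 F3 h1 h3 h2 o ho K hKn x ι s r U g u v hs hr hcls Q1 Q2 Q3 q1 q2 q3 hez
      f1 f2
  obtain ⟨p1, p2, p3⟩ := pt ι ⟨a, e0, k8, k3, c, d, Kt, e, cP, L, 1, t⟩ n ez F1 F2 F3 o K x s r U g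
    u v Q1 Q2 Q3 ht ht1 he0 (he0'.trans (min_le_right _ _)) hk3 (hk3'.trans (min_le_right _ _)) hd
    (hdd.trans (min_le_right _ _)) hc he hcP hL ho hKn hs hr hcls q1 q2 q3 hez f1 f2
  refine ⟨_, _, p1, p2, p3, ?_, ?_⟩
  · unfold SumQ at hE
    rwa [one_mul] at hE
  · unfold SumQ at hB
    rwa [neg_one_mul] at hB

end

end Vale.Agent.P141.H222.Of
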